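import Vale.Agent.P365.Z0.H562.Z10
import Vale.Agent.P365.Z0.Tor

/-!
# P365, zero-dimensional spectrum, Z9 + Z10: the input on the tori
-/

namespace P365L.Z0

open MeasureTheory Complex Filter Topology Metric ProbabilityTheory P365L.Inf P365Z0.F700
open P365L.TL P365L.E913 P365T1
open scoped ENNReal InnerProductSpace

theorem Sz_eq (W : Site → ℝ) (z : ℂ) : T436.Sz W z = wx W z 0 := rfl

/-- The input of Z9 and Z10: the means of `log w_0` on arbitrarily large tori. -/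
def LogTor (ν : Measure ℝ) (lam : ℝ) : Prop :=
  ∃ b : ℕ → ℕ → ℝ, (∀ r i, 0 < b r i) ∧ (∀ r, Tendsto (b r) atTop (𝓝 0)) ∧
    ∀ E : ℝ, |E| < 4 + lam → ∃ R : ℕ, ∀ r ≥ R, ∀ δ : ℝ, 0 < δ → ∀ᶠ i in atTop,
      ∀ N₀ : ℕ, ∃ N, N₀ ≤ N ∧ ∃ _ : NeZero N,
        ∫ v, Real.log (Sf (AT N) (Wh E (b r i) v) 0) ∂(Measure.pi fun _ : Tor N => ν) ≤
          -(1 - δ) * Real.log (1 / b r i)

theorem logIn_of_tor {ν : Measure ℝ} [IsProbabilityMeasure ν] {lam : ℝ} (h : LogTor ν lam) :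
    LogIn ν lam := by
  obtain ⟨b, hb, hb0, h⟩ := h
  refine ⟨b, hb, hb0, fun E hE => ?_⟩
  obtain ⟨R, hR⟩ := h E hE
  refine ⟨R, fun r hr δ hδ => (hR r hr δ hδ).mono fun i hi => ?_⟩
  simp only [← Sz_eq]
  exact T436.log_le_pi (hb r i) hi

/-- **Z9 + Z10**: for `w` iid uniform on `[-1, 1]`: if the means of `log w_0` on the tori are at most
`-(1 - δ) log (1 / b)`, all spectral measures of `hop + lam w` are almost surely carried by one Borel
set of Hausdorff dimension zero. -/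
theorem z910 {lam : ℝ} (hlam : 0 < lam) (h : LogTor (TL.nuL lam) lam)
    {Ω : Type*} [MeasurableSpace Ω] (P : Measure Ω) [IsProbabilityMeasure P]
    (w : Site → Ω → ℝ) (hw : ∀ x, Measurable (w x)) (hi : iIndepFun w P)
    (hl : ∀ x, P.map (w x) = cond volume (Set.Icc (-1) 1)) :
    ∀ᵐ ω ∂P, ZeroDimSpectrum fun x => lam * w x ω := by
  have hm : Measurable fun t : ℝ => lam * t := measurable_id.const_mul lam
  have hp : IsProbabilityMeasure (TL.nuL lam) := by
    unfold TL.nuL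
    exact Measure.isProbabilityMeasure_map hm.aemeasurable
  have h1 : LogIn (TL.nuL lam) lam := logIn_of_tor h
  exact z10_unif hlam h1 hw hi hl

end P365L.Z0
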