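import Vale.Agent.P365.Z0.H562.Z10F
import Vale.Agent.P365.Z0.Iface

/-!
# P365, zero-dimensional spectrum: the block Z10 of the interface
-/

namespace P365L.Z0

/-- **The block Z10.** -/
theorem z10_iface : P365Z.Z10 := fun _lam hlam h {_Ω} _ P _ w hw hi hl =>
  z910 hlam (logTor_of_bS h) P w hw hi hl

end P365L.Z0
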