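import Vale.Agent.P365.Z0.H562.One
import Vale.Agent.P365.InfB.Main
import Vale.Agent.P365.Z0.H592.AllPsi

/-!
# P365, zero-dimensional spectrum, Z10a: spectral averaging at one site
-/

namespace P365L.Z0

open MeasureTheory Complex Filter Topology Metric ProbabilityTheory P365L.Inf
open scoped ENNReal InnerProductSpace

/-- mean over an independent centre -/
theorem avg_indep {Ω : Type*} [MeasurableSpace Ω] {P : Measure Ω} [IsProbabilityMeasure P]
    {X : Ω → ℝ} {p : Ω → ℂ} (hX : Measurable X) (hp : Measurable p) (hi : IndepFun X p P)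
    {K : ℝ≥0∞} (hK : P.map X ≤ K • (volume : Measure ℝ)) {φ : ℝ × ℂ → ℝ≥0∞} (hφ : Measurable φ) :
    ∫⁻ ω, φ (X ω, p ω) ∂P ≤ K * ∫⁻ ω, (∫⁻ v : ℝ, φ (v, p ω)) ∂P := by
  have h1 : P.map (fun ω => (X ω, p ω)) = (P.map X).prod (P.map p) :=
    (indepFun_iff_map_prod_eq_prod_map_map hX.aemeasurable hp.aemeasurable).1 hi
  have hX' : IsProbabilityMeasure (P.map X) := Measure.isProbabilityMeasure_map hX.aemeasurable
  have hp' : IsProbabilityMeasure (P.map p) := Measure.isProbabilityMeasure_map hp.aemeasurable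
  calc ∫⁻ ω, φ (X ω, p ω) ∂P = ∫⁻ q, φ q ∂(P.map fun ω => (X ω, p ω)) :=
        (lintegral_map hφ (hX.prodMk hp)).symm
    _ = ∫⁻ q, φ q ∂((P.map X).prod (P.map p)) := by rw [h1]
    _ = ∫⁻ c, ∫⁻ v, φ (v, c) ∂(P.map X) ∂(P.map p) := lintegral_prod_symm' _ hφ
    _ ≤ ∫⁻ c, K * (∫⁻ v : ℝ, φ (v, c)) ∂(P.map p) := by
        refine lintegral_mono fun c => ?_
        refine (lintegral_mono' hK le_rfl).trans (le_of_eq ?_)
        rw [lintegral_smul_measure, smul_eq_mul]
    _ = ∫⁻ ω, K * (∫⁻ v : ℝ, φ (v, p ω)) ∂P := by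
        refine lintegral_map (Measurable.const_mul ?_ _) hp
        exact Measurable.lintegral_prod_left' hφ
    _ = _ := by
        rw [lintegral_const_mul]
        exact (Measurable.lintegral_prod_left' hφ).comp hp

theorem avg_small {Ω : Type*} [MeasurableSpace Ω] {P : Measure Ω} [IsProbabilityMeasure P]
    {X : Ω → ℝ} {p : Ω → ℂ} (hX : Measurable X) (hp : Measurable p) (hi : IndepFun X p P)
    {K : ℝ≥0∞} (hK : P.map X ≤ K • (volume : Measure ℝ)) (hp0 : ∀ ω, 0 < (p ω).im) {T β : ℝ}
    (hT : 0 < T) (hTβ : T * β ≤ 1 / 2) :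
    ∫⁻ ω, (if kr (p ω) (X ω) ≤ T then ENNReal.ofReal (kr (p ω) (X ω)) else 0) ∂P ≤
      K * (ENNReal.ofReal (2 * Real.pi * Real.sqrt (2 * T * β)) +
        ENNReal.ofReal Real.pi * P {ω | β ≤ (p ω).im}) := by
  have hφ : Measurable fun q : ℝ × ℂ => if kr q.2 q.1 ≤ T then ENNReal.ofReal (kr q.2 q.1) else 0 :=
    Measurable.ite (measurableSet_le measurable_kr measurable_const) measurable_kr.ennreal_ofReal
      measurable_const
  refine (avg_indep hX hp hi hK hφ).trans (mul_le_mul_right ?_ _)
  simp only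
  have hset : MeasurableSet {ω | β ≤ (p ω).im} :=
    measurableSet_le measurable_const (Complex.measurable_im.comp hp)
  calc ∫⁻ ω, (∫⁻ v : ℝ, (if kr (p ω) v ≤ T then ENNReal.ofReal (kr (p ω) v) else 0)) ∂P
      ≤ ∫⁻ ω, (ENNReal.ofReal (2 * Real.pi * Real.sqrt (2 * T * β)) +
          {ω | β ≤ (p ω).im}.indicator (fun _ => ENNReal.ofReal Real.pi) ω) ∂P := by
        refine lintegral_mono fun ω => ?_
        simp only
        by_cases h : β ≤ (p ω).im
        · rw [Set.indicator_of_mem (show ω ∈ {ω | β ≤ (p ω).im} from h)]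
          refine le_add_left ?_
          rw [← lint_kr (p ω) (hp0 ω)]
          refine lintegral_mono fun v => ?_
          split_ifs
          · exact le_rfl
          · exact zero_le
        · rw [Set.indicator_of_notMem (show ω ∉ {ω | β ≤ (p ω).im} from h), add_zero]
          exact ker_small (p ω) (hp0 ω) hT (not_le.1 h).le hTβ
    _ = _ := by
        rw [lintegral_add_left measurable_const, lintegral_const, measure_univ, mul_one,
          lintegral_indicator_const hset]

/-! ### the random potential -/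

variable {Ω : Type*} [MeasurableSpace Ω] {P : Measure Ω} [IsProbabilityMeasure P]
variable {γ : ℝ} {V : Site → Ω → ℝ}

omit [IsProbabilityMeasure P] in
/-- the potential at a site is independent of the others -/
theorem indep_site (hV : ∀ x, Measurable (V x)) (hi : iIndepFun V P) (x : Site) {β : Type*}
    [MeasurableSpace β] {F : (Site → ℝ) → β} (hF : Measurable F) :
    IndepFun (V x) (fun ω => F (Function.update (InfB.pot V ω) x 0)) P := by
  set m : Site → MeasurableSpace Ω := fun y => MeasurableSpace.comap (V y) inferInstance with hm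
  have h1 : Indep (⨆ i ∈ ({x} : Set Site), m i) (⨆ i ∈ ({x}ᶜ : Set Site), m i) P :=
    indep_iSup_of_disjoint (fun y => (hV y).comap_le) hi disjoint_compl_right
  have h2 : Indep (m x) (⨆ i ∈ ({x}ᶜ : Set Site), m i) P := by
    refine indep_of_indep_of_le_left h1 ?_
    exact le_iSup₂_of_le x rfl le_rfl
  rw [IndepFun_iff_Indep]
  refine indep_of_indep_of_le_right h2 ?_
  rw [← measurable_iff_comap_le]
  refine hF.comp ?_
  refine @measurable_pi_lambda _ _ _ (_) _ _ fun y => ?_
  by_cases hy : y = x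
  · subst hy
    simp only [Function.update_self]
    exact measurable_const
  · simp only [Function.update_of_ne hy]
    have h3 : Measurable[m y] (V y) := comap_measurable (V y)
    exact h3.mono (le_iSup₂_of_le y hy le_rfl) le_rfl

theorem measurable_gx {Ω' : Type*} [MeasurableSpace Ω'] (W : Ω' → Site → ℝ) (z : Ω' → ℂ)
    (hW : ∀ x, Measurable fun ω => W ω x) (hz : Measurable z) (hz0 : ∀ ω, 0 < (z ω).im)
    (x : Site) : Measurable fun ω => gx (W ω) (z ω) x :=
  measurable_Res W z hW hz hz0 x x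

theorem measurable_wx {Ω' : Type*} [MeasurableSpace Ω'] (W : Ω' → Site → ℝ) (z : Ω' → ℂ)
    (hW : ∀ x, Measurable fun ω => W ω x) (hz : Measurable z) (hz0 : ∀ ω, 0 < (z ω).im)
    (x : Site) : Measurable fun ω => wx (W ω) (z ω) x := by
  have h := measurable_gx W z hW hz hz0 x
  exact (Complex.measurable_im.comp h).div (h.norm.pow_const 2)

theorem avg_gx (hs : InfB.BSetup P V γ) (x : Site) {z : ℂ} (hz : 0 < z.im) {T β : ℝ}
    (hT : 0 < T) (hTβ : T * β ≤ 1 / 2) :
    ∫⁻ ω, (if (gx (InfB.pot V ω) z x).im ≤ T then ENNReal.ofReal (gx (InfB.pot V ω) z x).im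
      else 0) ∂P ≤
      ENNReal.ofReal (1 / (Real.pi * γ)) *
        (ENNReal.ofReal (2 * Real.pi * Real.sqrt (2 * T * β)) +
          ENNReal.ofReal Real.pi * P {ω | β ≤ wx (InfB.pot V ω) z x}) := by
  have hF : Measurable fun W : Site → ℝ => -(gx W z x)⁻¹ :=
    (measurable_gx (fun W : Site → ℝ => W) (fun _ => z) (fun y => measurable_pi_apply y)
      measurable_const (fun _ => hz) x).inv.neg
  have hi : IndepFun (V x) (fun ω => pz (InfB.pot V ω) z x) P := indep_site hs.hV hs.hi x hF
  have hp : Measurable fun ω => pz (InfB.pot V ω) z x := by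
    refine hF.comp (measurable_pi_lambda _ fun y => ?_)
    by_cases hy : y = x
    · subst hy
      simp only [Function.update_self]
      exact measurable_const
    · simp only [Function.update_of_ne hy]
      exact hs.hV y
  have h := avg_small (hs.hV x) hp hi (hs.hK x) (fun ω => hz.trans_le (pz_im hz)) hT hTβ
  have e1 : ∀ ω, (gx (InfB.pot V ω) z x).im = kr (pz (InfB.pot V ω) z x) (V x ω) := fun ω =>
    im_gx_eq hz
  have e2 : ∀ ω, wx (InfB.pot V ω) z x = (pz (InfB.pot V ω) z x).im := fun ω => wx_eq hz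
  simp only [e1, e2]
  exact h

end P365L.Z0
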