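import Vale.Agent.P365.Inf.Pure

/-!
# P365, zero-dimensional spectrum, Z10: the absorption of the self-energy
-/

namespace P365L.Z0

open MeasureTheory Complex Filter Topology P365L.Inf

/-- The diagonal entry of the resolvent at the site `x`. -/
noncomputable def gx (V : Site → ℝ) (z : ℂ) (x : Site) : ℂ := (Res V z (dl x)) x

/-- The imaginary part of the self-energy at the site `x`. -/
noncomputable def wx (V : Site → ℝ) (z : ℂ) (x : Site) : ℝ := (gx V z x).im / ‖gx V z x‖ ^ 2

end P365L.Z0
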