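import Vale.Agent.P365.Z0.H562.Defs

/-!
# P365, zero-dimensional spectrum, Z10a: deterministic part

`det_one`: the points around which a ball of radius `b ^ (1 - s)` has mass less than `b ^ s` carry at
most the integral of the Poisson transform over the energies at which it is at most `5 b ^ (s - 1)`.
`det_lim`: if these integrals have the inferior limit zero, almost every point has infinitely many heavy
balls.
-/

namespace P365L.Z0

open MeasureTheory Complex Filter Topology Metric
open scoped ENNReal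

/-- The Poisson transform. -/
noncomputable def PT (μ : Measure ℝ) (b E : ℝ) : ℝ := ∫ t, b / ((t - E) ^ 2 + b ^ 2) ∂μ

theorem PT_nonneg (μ : Measure ℝ) {b : ℝ} (hb : 0 < b) (E : ℝ) : 0 ≤ PT μ b E :=
  integral_nonneg fun t => poisson_nonneg E t hb

theorem ofReal_PT (μ : Measure ℝ) [IsFiniteMeasure μ] {b : ℝ} (hb : 0 < b) (E : ℝ) :
    ENNReal.ofReal (PT μ b E) = ∫⁻ t, ENNReal.ofReal (b / ((t - E) ^ 2 + b ^ 2)) ∂μ :=
  ofReal_integral_eq_lintegral_ofReal (poisson_integrable E hb)
    (ae_of_all _ fun t => poisson_nonneg E t hb)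

theorem measurable_PT (μ : Measure ℝ) [IsFiniteMeasure μ] {b : ℝ} (hb : 0 < b) :
    Measurable (PT μ b) := by
  have h1 : Measurable fun E => ∫⁻ t, ENNReal.ofReal (b / ((t - E) ^ 2 + b ^ 2)) ∂μ := by
    refine Measurable.lintegral_prod_right' (f := fun p : ℝ × ℝ =>
      ENNReal.ofReal (b / ((p.2 - p.1) ^ 2 + b ^ 2))) ?_
    fun_prop
  have h2 : PT μ b = fun E => (∫⁻ t, ENNReal.ofReal (b / ((t - E) ^ 2 + b ^ 2)) ∂μ).toReal := by
    funext E
    rw [← ofReal_PT μ hb, ENNReal.toReal_ofReal (PT_nonneg μ hb E)]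
  rw [h2]
  exact h1.ennreal_toReal

/-- The Poisson transform is small next to a point with a light ball. -/
theorem PT_light {μ : Measure ℝ} [IsFiniteMeasure μ] (hμ : μ Set.univ ≤ 1) {b r m : ℝ} (hb : 0 < b)
    (hr : 2 * b ≤ r) {t E : ℝ} (hE : |E - t| ≤ b) (hm : μ.real (closedBall t r) ≤ m) :
    PT μ b E ≤ m / b + 4 * b / r ^ 2 := by
  have hr0 : 0 < r := by linarith
  have hμ1 : μ.real Set.univ ≤ 1 := by
    have := ENNReal.toReal_mono ENNReal.one_ne_top hμ
    simpa [Measure.real] using this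
  have hpt : ∀ u : ℝ, b / ((u - E) ^ 2 + b ^ 2) ≤
      (closedBall t r).indicator (fun _ => 1 / b) u + 4 * b / r ^ 2 := by
    intro u
    by_cases hu : u ∈ closedBall t r
    · rw [Set.indicator_of_mem hu]
      have := poisson_le E u hb
      have h2 : 0 ≤ 4 * b / r ^ 2 := by positivity
      linarith
    · rw [Set.indicator_of_notMem hu, zero_add]
      rw [mem_closedBall, Real.dist_eq, not_le] at hu
      have h3 : r / 2 ≤ |u - E| := by
        have h4 : |u - t| ≤ |u - E| + |E - t| := by
          have := abs_add_le (u - E) (E - t)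
          rwa [show u - E + (E - t) = u - t by ring] at this
        linarith
      have h4 : r ^ 2 / 4 ≤ (u - E) ^ 2 := by
        have := pow_le_pow_left₀ (by positivity) h3 2
        rw [sq_abs, div_pow] at this
        linarith
      rw [div_le_div_iff₀ (by positivity) (by positivity)]
      nlinarith [sq_nonneg b]
  have h5 : PT μ b E ≤ ∫ u, ((closedBall t r).indicator (fun _ => 1 / b) u + 4 * b / r ^ 2) ∂μ := by
    refine integral_mono (poisson_integrable E hb) ?_ hpt
    exact ((integrable_const _).indicator isClosed_closedBall.measurableSet).add (integrable_const _)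
  rw [integral_add ((integrable_const _).indicator isClosed_closedBall.measurableSet)
    (integrable_const _), integral_indicator_const _ isClosed_closedBall.measurableSet,
    integral_const, smul_eq_mul, smul_eq_mul] at h5
  refine h5.trans (add_le_add ?_ ?_)
  · rw [mul_one_div]
    exact div_le_div_of_nonneg_right hm hb.le
  · have : 0 ≤ 4 * b / r ^ 2 := by positivity
    nlinarith

/-- **One scale.** -/
theorem det_one {μ : Measure ℝ} [IsFiniteMeasure μ] (hμ : μ Set.univ ≤ 1) {b r m T : ℝ}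
    (hb : 0 < b) (hr : 2 * b ≤ r) (hT : m / b + 4 * b / r ^ 2 ≤ T) {J' J : Set ℝ}
    (hJ : MeasurableSet J) (hJJ : ∀ t ∈ J', closedBall t b ⊆ J) :
    μ {t | t ∈ J' ∧ μ.real (closedBall t r) ≤ m} ≤
      ∫⁻ E in J, (if PT μ b E ≤ T then ENNReal.ofReal (PT μ b E) else 0) := by
  have hPm := measurable_PT μ hb
  set G : Set ℝ := {E | PT μ b E ≤ T} ∩ J with hG
  have hGm : MeasurableSet G := (measurableSet_le hPm measurable_const).inter hJ
  set k : ℝ × ℝ → ℝ≥0∞ := fun p => ENNReal.ofReal (b / ((p.1 - p.2) ^ 2 + b ^ 2)) with hk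
  have hkm : Measurable k := by rw [hk]; fun_prop
  set h : ℝ → ℝ≥0∞ := fun t => ∫⁻ E in G, k (t, E) with hh
  have hhm : Measurable h := Measurable.lintegral_prod_right' hkm
  have h1 : {t | t ∈ J' ∧ μ.real (closedBall t r) ≤ m} ⊆ {t | 1 ≤ h t} := by
    rintro t ⟨ht, htm⟩
    show 1 ≤ h t
    have hsub : closedBall t b ⊆ G := by
      intro E hE
      refine ⟨?_, hJJ t ht hE⟩
      rw [mem_closedBall, Real.dist_eq] at hE
      exact (PT_light hμ hb hr hE htm).trans hT
    have h2 : ∫⁻ E in closedBall t b, ENNReal.ofReal (1 / (2 * b)) ≤ h t := by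
      refine le_trans ?_ (lintegral_mono_set hsub)
      refine setLIntegral_mono (hkm.comp (measurable_const.prodMk measurable_id)) fun E hE => ?_
      rw [mem_closedBall, Real.dist_eq] at hE
      refine ENNReal.ofReal_le_ofReal ?_
      have h3 : (t - E) ^ 2 ≤ b ^ 2 := by
        rw [← sq_abs (t - E), abs_sub_comm]
        exact pow_le_pow_left₀ (abs_nonneg _) hE 2
      simp only
      rw [div_le_div_iff₀ (by positivity) (by positivity)]
      nlinarith
    refine le_trans (le_of_eq ?_) h2
    rw [setLIntegral_const, Real.volume_closedBall, ← ENNReal.ofReal_mul (by positivity)]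
    rw [show 1 / (2 * b) * (2 * b) = 1 by field_simp, ENNReal.ofReal_one]
  calc μ {t | t ∈ J' ∧ μ.real (closedBall t r) ≤ m} ≤ μ {t | 1 ≤ h t} := measure_mono h1
    _ = 1 * μ {t | 1 ≤ h t} := (one_mul _).symm
    _ ≤ ∫⁻ t, h t ∂μ := mul_meas_ge_le_lintegral hhm 1
    _ = ∫⁻ E in G, ∫⁻ t, k (t, E) ∂μ := lintegral_lintegral_swap hkm.aemeasurable
    _ = ∫⁻ E in G, ENNReal.ofReal (PT μ b E) := by
        refine lintegral_congr fun E => ?_
        rw [ofReal_PT μ hb]
    _ = ∫⁻ E in G, (if PT μ b E ≤ T then ENNReal.ofReal (PT μ b E) else 0) := by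
        refine setLIntegral_congr_fun hGm fun E hE => ?_
        have h3 : PT μ b E ≤ T := hE.1
        rw [if_pos h3]
    _ ≤ _ := lintegral_mono_set Set.inter_subset_right

/-- **All scales.** -/
theorem det_lim {μ : Measure ℝ} {A : ℕ → Set ℝ} {j : ℕ → ℝ≥0∞} (hA : ∀ᶠ n in atTop, μ (A n) ≤ j n)
    (hj : liminf j atTop = 0) : μ {t | ∀ᶠ n in atTop, t ∈ A n} = 0 := by
  have h1 : {t | ∀ᶠ n in atTop, t ∈ A n} = ⋃ N, ⋂ n ≥ N, A n := by
    ext t
    simp only [Set.mem_ofPred_eq, eventually_atTop, Set.mem_iUnion, Set.mem_iInter]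
  rw [h1, measure_iUnion_null_iff]
  intro N
  refine le_antisymm (le_of_forall_pos_le_add fun ε hε => ?_) zero_le
  rw [zero_add]
  have h2 : ∃ᶠ n in atTop, j n < ε := by
    have h3 : liminf j atTop < ε := by rw [hj]; exact hε
    exact frequently_lt_of_liminf_lt (by isBoundedDefault) h3
  obtain ⟨n, hn1, hn2, hn3⟩ := (h2.and_eventually (hA.and (eventually_ge_atTop N))).exists
  refine (measure_mono ?_).trans (hn2.trans hn1.le)
  exact Set.iInter₂_subset n hn3

end P365L.Z0
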