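import Vale.Agent.P365.Z0.H562.Det
import Vale.Agent.P365.Inf.Main

/-!
# P365, zero-dimensional spectrum, Z10a: one site

`gx_eq`: the diagonal entry of the resolvent as a function of the potential at its site.
`ker_small`: mean of the Poisson kernel over the values at which it is small.
`avg_small`: the same for a random centre which is independent of the potential at the site.
-/

namespace P365L.Z0

open MeasureTheory Complex Filter Topology Metric ProbabilityTheory P365L.Inf
open scoped ENNReal InnerProductSpace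

variable {V : Site → ℝ} {z : ℂ} {x : Site}

theorem gx_im (hz : 0 < z.im) : (gx V z x).im = z.im * ‖Res V z (dl x)‖ ^ 2 :=
  (res_im V hz x).symm

theorem res_ne (hz : 0 < z.im) : Res V z (dl x) ≠ 0 := by
  intro h
  have h1 := res_spec V hz (dl x) x
  rw [h] at h1
  have h2 : (dl x : L2) x = 1 := by
    unfold dl
    simp
  rw [h2] at h1
  simp [hop] at h1

theorem gx_im_pos (hz : 0 < z.im) : 0 < (gx V z x).im := by
  rw [gx_im hz]
  have := norm_pos_iff.2 (res_ne (V := V) (x := x) hz)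
  positivity

theorem gx_ne (hz : 0 < z.im) : gx V z x ≠ 0 := by
  intro h
  have := gx_im_pos (V := V) (x := x) hz
  rw [h] at this
  simp at this

theorem le_wx (hz : 0 < z.im) : z.im ≤ wx V z x := by
  have h1 : 0 < ‖gx V z x‖ := norm_pos_iff.2 (gx_ne hz)
  have h2 : ‖gx V z x‖ ≤ ‖Res V z (dl x)‖ := lp.norm_apply_le_norm (by norm_num) _ x
  unfold wx
  rw [gx_im hz, le_div_iff₀ (by positivity)]
  exact mul_le_mul_of_nonneg_left (pow_le_pow_left₀ h1.le h2 2) hz.le

/-- The self-energy at the site. -/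
noncomputable def pz (V : Site → ℝ) (z : ℂ) (x : Site) : ℂ :=
  -(gx (Function.update V x 0) z x)⁻¹

theorem pz_im (hz : 0 < z.im) : z.im ≤ (pz V z x).im := by
  have h1 := le_wx (V := Function.update V x 0) (x := x) hz
  have h2 : (pz V z x).im = wx (Function.update V x 0) z x := by
    unfold pz wx
    rw [neg_im, inv_im, Complex.normSq_eq_norm_sq]
    ring
  rw [h2]
  exact h1

/-- **The dependence on the potential at the site.** -/
theorem gx_eq (hz : 0 < z.im) : gx V z x = ((V x : ℂ) - pz V z x)⁻¹ := by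
  obtain ⟨V0, hV0⟩ : ∃ V0, V0 = Function.update V x 0 := ⟨_, rfl⟩
  obtain ⟨u, hu⟩ : ∃ u, u = Res V0 z (dl x) := ⟨_, rfl⟩
  obtain ⟨G, hG⟩ : ∃ G, G = gx V0 z x := ⟨_, rfl⟩
  have hGu : G = u x := by rw [hG, hu]; rfl
  have hGi : 0 < G.im := by rw [hG]; exact gx_im_pos hz
  have hG0 : G ≠ 0 := by rw [hG]; exact gx_ne hz
  have hne : 1 + (V x : ℂ) * G ≠ 0 := by
    intro h
    have h1 := congrArg Complex.im h
    simp only [add_im, one_im, mul_im, ofReal_re, ofReal_im, zero_mul, add_zero, zero_add,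
      zero_im] at h1
    rcases mul_eq_zero.1 h1 with h2 | h2
    · rw [h2] at h
      simp at h
    · exact hGi.ne' h2
  have hres : Res V z (dl x) = (1 + (V x : ℂ) * G)⁻¹ • u := by
    refine res_unique hz fun y => ?_
    have h1 := res_spec V0 hz (dl x) y
    rw [← hu] at h1
    simp only [hop, lp.coeFn_smul, Pi.smul_apply, smul_eq_mul] at h1 ⊢
    by_cases hy : y = x
    · subst hy
      have h2 : V0 y = 0 := by rw [hV0, Function.update_self]
      rw [h2] at h1
      rw [← hGu] at h1 ⊢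
      have h3 : (dl y : L2) y = 1 := by
        unfold dl
        simp
      rw [h3] at h1 ⊢
      field_simp
      push_cast at h1
      linear_combination h1
    · have h2 : V0 y = V y := by rw [hV0, Function.update_of_ne hy]
      rw [h2] at h1
      have h3 : (dl x : L2) y = 0 := by
        unfold dl
        rw [lp.single_apply, Pi.single_eq_of_ne hy]
      rw [h3] at h1 ⊢
      linear_combination (1 + (V x : ℂ) * G)⁻¹ * h1
  have h4 : gx V z x = (1 + (V x : ℂ) * G)⁻¹ * G := by
    unfold gx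
    rw [hres, lp.coeFn_smul, Pi.smul_apply, smul_eq_mul, ← hGu]
  rw [h4]
  unfold pz
  rw [← hV0, ← hG]
  rw [sub_neg_eq_add]
  have h5 : (V x : ℂ) + G⁻¹ = (1 + (V x : ℂ) * G) * G⁻¹ := by
    rw [add_mul, one_mul, mul_assoc, mul_inv_cancel₀ hG0, mul_one, add_comm]
  rw [h5, mul_inv, inv_inv]

/-- The absorption does not depend on the potential at the site. -/
theorem wx_eq (hz : 0 < z.im) : wx V z x = (pz V z x).im := by
  have h1 : wx V z x = -((gx V z x)⁻¹).im := by
    unfold wx
    rw [inv_im, Complex.normSq_eq_norm_sq]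
    ring
  rw [h1, gx_eq hz, inv_inv]
  simp

theorem im_gx_eq (hz : 0 < z.im) : (gx V z x).im =
    (pz V z x).im / ((V x - (pz V z x).re) ^ 2 + (pz V z x).im ^ 2) := by
  rw [gx_eq hz, inv_im, Complex.normSq_apply]
  simp only [sub_re, ofReal_re, sub_im, ofReal_im, zero_sub, neg_neg]
  congr 1
  ring

/-! ### the Poisson kernel -/

/-- The Poisson kernel. -/
noncomputable def kr (p : ℂ) (v : ℝ) : ℝ := p.im / ((v - p.re) ^ 2 + p.im ^ 2)

theorem measurable_kr : Measurable fun q : ℝ × ℂ => kr q.2 q.1 := by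
  unfold kr
  fun_prop

theorem lint_kr (p : ℂ) (hp : 0 < p.im) : ∫⁻ v : ℝ, ENNReal.ofReal (kr p v) =
    ENNReal.ofReal Real.pi := by
  rw [← lintegral_poisson_one p.re hp]
  refine lintegral_congr fun v => ?_
  unfold kr
  rw [sub_sq_comm]

theorem ker_small (p : ℂ) (hp : 0 < p.im) {T β : ℝ} (hT : 0 < T) (hβ : p.im ≤ β)
    (hTβ : T * β ≤ 1 / 2) :
    ∫⁻ v : ℝ, (if kr p v ≤ T then ENNReal.ofReal (kr p v) else 0) ≤
      ENNReal.ofReal (2 * Real.pi * Real.sqrt (2 * T * β)) := by
  obtain ⟨w, hw⟩ : ∃ w, w = p.im := ⟨_, rfl⟩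
  rw [← hw] at hp hβ
  have hβ0 : 0 < β := hp.trans_le hβ
  obtain ⟨Y, hY⟩ : ∃ Y, Y = Real.sqrt (w / (2 * T)) := ⟨_, rfl⟩
  have hY0 : 0 < Y := by rw [hY]; exact Real.sqrt_pos.2 (by positivity)
  have hY2 : Y ^ 2 = w / (2 * T) := by rw [hY]; exact Real.sq_sqrt (by positivity)
  have hwT : T * w ≤ 1 / 2 := (mul_le_mul_of_nonneg_left hβ hT.le).trans hTβ
  have hpt : ∀ v : ℝ, (if kr p v ≤ T then ENNReal.ofReal (kr p v) else 0) ≤
      ENNReal.ofReal (2 * w / Y) * ENNReal.ofReal (kr ⟨p.re, Y⟩ v) := by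
    intro v
    by_cases h : kr p v ≤ T
    · rw [if_pos h, ← ENNReal.ofReal_mul (by positivity)]
      refine ENNReal.ofReal_le_ofReal ?_
      unfold kr at h ⊢
      rw [← hw] at h ⊢
      simp only
      obtain ⟨y, hy⟩ : ∃ y, y = v - p.re := ⟨_, rfl⟩
      rw [← hy] at h ⊢
      have h1 : w ≤ T * (y ^ 2 + w ^ 2) := by
        rwa [div_le_iff₀ (by positivity)] at h
      have h2 : Y ^ 2 ≤ y ^ 2 := by
        rw [hY2, div_le_iff₀ (by positivity)]
        nlinarith
      rw [div_mul_div_comm, div_le_div_iff₀ (by positivity) (by positivity)]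
      have h3 : y ^ 2 + Y ^ 2 ≤ 2 * (y ^ 2 + w ^ 2) := by nlinarith [sq_nonneg w]
      have h4 : 0 < w * Y := by positivity
      nlinarith
    · rw [if_neg h]
      exact zero_le
  refine (lintegral_mono hpt).trans ?_
  rw [lintegral_const_mul' _ _ ENNReal.ofReal_ne_top, lint_kr ⟨p.re, Y⟩ hY0,
    ← ENNReal.ofReal_mul (by positivity)]
  refine ENNReal.ofReal_le_ofReal ?_
  have h5 : w / Y = Real.sqrt (2 * T * w) := by
    rw [eq_comm, Real.sqrt_eq_iff_mul_self_eq (by positivity) (by positivity)]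
    rw [div_mul_div_comm, ← sq Y, hY2]
    field_simp
  have h6 : Real.sqrt (2 * T * w) ≤ Real.sqrt (2 * T * β) := by
    refine Real.sqrt_le_sqrt ?_
    exact mul_le_mul_of_nonneg_left hβ (by positivity)
  calc 2 * w / Y * Real.pi = 2 * Real.pi * (w / Y) := by ring
    _ = 2 * Real.pi * Real.sqrt (2 * T * w) := by rw [h5]
    _ ≤ _ := mul_le_mul_of_nonneg_left h6 (by positivity)

end P365L.Z0
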