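import Vale.Agent.P365.Z0.H562.Z10a
import Vale.Agent.P365.Z0.H662.Glue
import Vale.Agent.P365.Z0.H21.Dim
import Vale.Agent.P365.Z0.H733.Supp
import Vale.Agent.P365.Z0.Fin700

/-!
# P365, zero-dimensional spectrum, Z10: from the means of `log w` to dimension zero

`z10`: for an iid potential whose law `ν` has a bounded density on `[-lam, lam]`: if for every energy
`|E| < 4 + lam` the mean of `log w_0 (E + i b)` is at most `-(1 - δ) log (1 / b)` along explicit
sequences `b r i`, then almost surely all spectral measures are carried by a set of Hausdorff dimension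
zero.
-/

namespace P365L.Z0

open MeasureTheory Complex Filter Topology Metric ProbabilityTheory P365L.Inf P365Z0.F700
open scoped ENNReal InnerProductSpace

/-- The diagonal entry at the site `x` is the one at the origin of the shifted potential. -/
theorem gx_shift (V : Site → ℝ) {z : ℂ} (hz : 0 < z.im) (x : Site) :
    gx V z x = gx (shift x V) z 0 := by
  have h1 := tendsto_GVs hz x 0 (res_spec V hz (dl x))
  have h2 := tendsto_GVs hz 0 0 (res_spec (shift x V) hz (dl 0))
  have h3 : shift 0 (shift x V) = shift x V := by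
    funext y
    unfold shift
    rw [zero_add]
  rw [h3] at h2
  rw [add_zero] at h1 h2
  exact tendsto_nhds_unique h1 h2

theorem wx_shift (V : Site → ℝ) {z : ℂ} (hz : 0 < z.im) (x : Site) :
    wx V z x = wx (shift x V) z 0 := by
  unfold wx
  rw [gx_shift V hz x]

/-- Uniqueness of the spectral measure. -/
theorem spec_unique {V : Site → ℝ} {ψ : L2} {μ ν : Measure ℝ} (hμ : IsSpectralMeasure V ψ μ)
    (hν : IsSpectralMeasure V ψ ν) : μ = ν := by
  have := hμ.finite
  have := hν.finite
  refine le_antisymm (H592.le_of_poisson fun E η hη => ?_) (H592.le_of_poisson fun E η hη => ?_)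
  · rw [H592.kernel_eq hμ E hη, H592.kernel_eq hν E hη]
  · rw [H592.kernel_eq hμ E hη, H592.kernel_eq hν E hη]

/-- **Z10b.** Infinitely many heavy balls at all sites. -/
theorem z10b {W : Site → ℝ} {c : ℕ → ℝ} (hc : ∀ n, 0 < c n) (hc0 : Tendsto c atTop (𝓝 0))
    (h : ∀ (x : Site) (μ : Measure ℝ), IsSpectralMeasure W (dl x) μ → ∀ s : ℝ, 0 < s → s < 1 →
      ∀ᵐ t ∂μ, ∃ᶠ n in atTop, ENNReal.ofReal (c n ^ s) ≤ μ (closedBall t (c n ^ (1 - s)))) :
    ZeroDimSpectrum W := by
  choose μ hμ _ using fun x : Site => exists_spectralMeasure W (dl x)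
  obtain ⟨S, hS, hS0, hSμ⟩ := dim0_union μ fun x => by
    have := (hμ x).finite
    exact dim0_seq (μ x) c hc hc0 (h x (μ x) (hμ x))
  refine ⟨S, hS, hS0, all_psi hS fun x ν hν => ?_⟩
  rw [spec_unique hν (hμ x)]
  exact hSμ x

/-- The input of Z10: the means of `log w` at the fixed energies. -/
def LogIn (ν : Measure ℝ) (lam : ℝ) : Prop :=
  ∃ b : ℕ → ℕ → ℝ, (∀ r i, 0 < b r i) ∧ (∀ r, Tendsto (b r) atTop (𝓝 0)) ∧
    ∀ E : ℝ, |E| < 4 + lam → ∃ R : ℕ, ∀ r ≥ R, ∀ δ : ℝ, 0 < δ → ∀ᶠ i in atTop,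
      ∫ W : Site → ℝ, Real.log (wx W ((E : ℂ) + b r i * I) 0)
        ∂(Measure.infinitePi fun _ : Site => ν) ≤ -(1 - δ) * Real.log (1 / b r i)

/-- One sequence for all energies. -/
theorem one_seq {ν : Measure ℝ} [IsProbabilityMeasure ν] {lam : ℝ} (h : LogIn ν lam) :
    ∃ c : ℕ → ℝ, (∀ n, 0 < c n) ∧ Tendsto c atTop (𝓝 0) ∧
      ∀ e : ℝ, 0 < e → Tendsto (fun n => ∫⁻ E : ℝ in Set.Ioo (-(4 + lam)) (4 + lam),
        (Measure.infinitePi fun _ : Site => ν)
          {W | c n ^ (1 - e) ≤ wx W ((E : ℂ) + c n * I) 0}) atTop (𝓝 0) := by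
  obtain ⟨b, hb, hb0, h⟩ := h
  obtain ⟨c, hc, -, hc0, hw⟩ := H662.glue (P := Measure.infinitePi fun _ : Site => ν)
    (V := fun W : Site → ℝ => W) (fun y => measurable_pi_apply y) 0
    (J := Set.Ioo (-(4 + lam)) (4 + lam)) (by rw [Real.volume_Ioo]; exact ENNReal.ofReal_ne_top)
    b hb hb0 (by
      refine (ae_restrict_mem measurableSet_Ioo).mono fun E hE => ?_
      obtain ⟨R, hR⟩ := h E (abs_lt.2 hE)
      refine ⟨R, fun r hr δ hδ => ?_⟩
      have h1 := hR r hr (min δ (1 / 2)) (lt_min hδ (by norm_num))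
      filter_upwards [h1, (hb0 r).eventually_lt_const one_pos] with i hi hi1
      have hL : 0 < Real.log (1 / b r i) := by
        refine Real.log_pos ?_
        rw [lt_div_iff₀ (hb r i), one_mul]
        exact hi1
      have h2 : min δ (1 / 2) ≤ 1 / 2 := min_le_right _ _
      have h3 : min δ (1 / 2) ≤ δ := min_le_left _ _
      refine ⟨?_, hi.trans ?_⟩
      · by_contra hint
        rw [integral_undef hint] at hi
        nlinarith
      · nlinarith)
  exact ⟨c, hc, hc0, hw⟩

/-- **Z10.** -/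
theorem z10 {ν : Measure ℝ} [IsProbabilityMeasure ν] {K lam : ℝ} (hK0 : 0 < K)
    (hK : ν ≤ ENNReal.ofReal K • (volume : Measure ℝ)) (hν : ν (Set.Icc (-lam) lam)ᶜ = 0)
    (h : LogIn ν lam) {Ω : Type*} [MeasurableSpace Ω] {P : Measure Ω} [IsProbabilityMeasure P]
    {V : Site → Ω → ℝ} (hV : ∀ x, Measurable (V x)) (hi : iIndepFun V P)
    (hl : ∀ x, P.map (V x) = ν) : ∀ᵐ ω ∂P, ZeroDimSpectrum fun x => V x ω := by
  obtain ⟨c, hc, hc0, hw⟩ := one_seq h
  have hs : InfB.BSetup P V (1 / (Real.pi * K)) := by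
    refine ⟨hV, hi, fun x => ?_⟩
    rw [hl x]
    have e1 : 1 / (Real.pi * (1 / (Real.pi * K))) = K := by
      have := Real.pi_pos.ne'
      field_simp
    rw [e1]
    exact hK
  have hbd : ∀ᵐ ω ∂P, ∀ x, |V x ω| ≤ lam := by
    refine ae_all_iff.2 fun x => ?_
    have h1 : P.map (V x) (Set.Icc (-lam) lam)ᶜ = 0 := by rw [hl x, hν]
    rw [Measure.map_apply (hV x) measurableSet_Icc.compl] at h1
    rw [ae_iff]
    refine measure_mono_null (fun ω hω => ?_) h1
    simp only [Set.mem_preimage, Set.mem_compl_iff, Set.mem_Icc]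
    intro h2
    exact hω (abs_le.2 h2)
  have key : ∀ x : Site, ∀ᵐ ω ∂P, ∀ μ, IsSpectralMeasure (InfB.pot V ω) (dl x) μ →
      ∀ s : ℝ, 0 < s → s < 1 → ∀ᵐ t ∂μ, ∃ᶠ n in atTop,
        ENNReal.ofReal (c n ^ s) ≤ μ (closedBall t (c n ^ (1 - s))) := by
    intro x
    refine z10a hs x (L := 4 + lam) ?_ hc hc0 ?_
    · filter_upwards [hbd] with ω hω μ hμ
      exact spec_support hω hμ
    · intro e he
      refine (hw e he).congr fun n => ?_
      refine lintegral_congr fun E => ?_
      have hz := hz_im E (hc n)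
      have hsh : Measurable fun ω => shift x (InfB.pot V ω) :=
        measurable_pi_lambda _ fun y => hV (x + y)
      have hlaw : P.map (fun ω => shift x (InfB.pot V ω)) =
          Measure.infinitePi fun _ : Site => ν := by
        have hi' : iIndepFun (fun y : Site => V (x + y)) P := hi.precomp (add_right_injective x)
        have h1 := hi'.map_fun_eq_infinitePi_map (fun y => hV (x + y))
        simp only [hl] at h1
        exact h1
      have hm : Measurable fun W : Site → ℝ => wx W ((E : ℂ) + c n * I) 0 :=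
        measurable_wx (fun W : Site → ℝ => W) (fun _ => (E : ℂ) + c n * I)
          (fun y => measurable_pi_apply y) measurable_const (fun _ => hz) 0
      rw [← hlaw, Measure.map_apply hsh (measurableSet_le measurable_const hm)]
      congr 1
      ext ω
      simp only [Set.mem_preimage, Set.mem_ofPred_eq]
      rw [wx_shift (InfB.pot V ω) hz x]
  filter_upwards [ae_all_iff.2 key] with ω hω
  exact z10b hc hc0 hω

/-- the law of `lam * w` for `w` uniform on `[-1, 1]` -/
theorem unif_law {lam : ℝ} (hlam : 0 < lam) :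
    ((cond volume (Set.Icc (-1 : ℝ) 1)).map fun t => lam * t) ≤
      ENNReal.ofReal (1 / 2 * lam⁻¹) • (volume : Measure ℝ) ∧
    ((cond volume (Set.Icc (-1 : ℝ) 1)).map fun t => lam * t) (Set.Icc (-lam) lam)ᶜ = 0 := by
  have hm : Measurable fun t : ℝ => lam * t := measurable_id.const_mul lam
  have hc : cond volume (Set.Icc (-1 : ℝ) 1) =
      ENNReal.ofReal (1 / 2) • (volume : Measure ℝ).restrict (Set.Icc (-1) 1) := by
    unfold ProbabilityTheory.cond
    rw [Real.volume_Icc, ← ENNReal.ofReal_inv_of_pos (by norm_num)]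
    norm_num
  refine ⟨Measure.le_iff.2 fun s hs => ?_, ?_⟩
  · rw [Measure.map_apply hm hs, hc, Measure.smul_apply, smul_eq_mul, Measure.smul_apply,
      smul_eq_mul]
    refine (mul_le_mul_right (Measure.restrict_apply_le _ _) _).trans ?_
    have h3 := (Real.volume_preimage_mul_left hlam.ne' s).le
    refine (mul_le_mul_right h3 _).trans ?_
    rw [← mul_assoc, ← ENNReal.ofReal_mul (by norm_num), abs_of_pos (inv_pos.2 hlam)]
  · rw [Measure.map_apply hm measurableSet_Icc.compl, hc, Measure.smul_apply, smul_eq_mul]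
    rw [Measure.restrict_apply (hm measurableSet_Icc.compl)]
    have : (fun t : ℝ => lam * t) ⁻¹' (Set.Icc (-lam) lam)ᶜ ∩ Set.Icc (-1) 1 = ∅ := by
      ext t
      simp only [Set.mem_inter_iff, Set.mem_preimage, Set.mem_compl_iff, Set.mem_Icc,
        Set.mem_empty_iff_false, iff_false]
      rintro ⟨h1, h2, h3⟩
      exact h1 ⟨by nlinarith, by nlinarith⟩
    rw [this, measure_empty, mul_zero]

/-- **Z10 for the uniform law.** -/
theorem z10_unif {lam : ℝ} (hlam : 0 < lam)
    (h : LogIn ((cond volume (Set.Icc (-1 : ℝ) 1)).map fun t => lam * t) lam)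
    {Ω : Type*} [MeasurableSpace Ω] {P : Measure Ω} [IsProbabilityMeasure P]
    {w : Site → Ω → ℝ} (hw : ∀ x, Measurable (w x)) (hi : iIndepFun w P)
    (hl : ∀ x, P.map (w x) = cond volume (Set.Icc (-1) 1)) :
    ∀ᵐ ω ∂P, ZeroDimSpectrum fun x => lam * w x ω := by
  have hm : Measurable fun t : ℝ => lam * t := measurable_id.const_mul lam
  have hpc : IsProbabilityMeasure (cond volume (Set.Icc (-1 : ℝ) 1)) := by
    rw [← hl 0]
    exact Measure.isProbabilityMeasure_map (hw 0).aemeasurable
  have hp : IsProbabilityMeasure ((cond volume (Set.Icc (-1 : ℝ) 1)).map fun t => lam * t) :=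
    Measure.isProbabilityMeasure_map hm.aemeasurable
  have hi' : iIndepFun (fun x o => lam * w x o) P := hi.comp (fun _ t => lam * t) fun _ => hm
  have hl' : ∀ x, P.map (fun o => lam * w x o) =
      (cond volume (Set.Icc (-1 : ℝ) 1)).map fun t => lam * t := by
    intro x
    rw [← hl x, Measure.map_map hm (hw x)]
    rfl
  exact z10 (by positivity) (unif_law hlam).1 (unif_law hlam).2 h
    (fun x => (hw x).const_mul lam) hi' hl'

end P365L.Z0
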