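import Vale.Agent.P365.Z0.H562.Z10T
import Vale.Agent.P365.T1.Seq795

/-!
# P365, zero-dimensional spectrum, Z10: the sequence of the chain
-/

namespace P365L.Z0

open MeasureTheory Complex Filter Topology Metric ProbabilityTheory P365L.Inf P365Z0.F700
open P365L.TL P365L.E913 P365T1 P365T1.Seq
open scoped ENNReal InnerProductSpace

theorem le_nS {rs : ℕ} (h : 2 ≤ rs) (I : ℕ) : I ≤ nS rs I := by
  have h1 := lt_rr h (I + 1)
  have h2 : rr rs (I + 1) ≤ rr rs (I + 1) ^ 5 := Nat.le_self_pow (by norm_num) _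
  unfold nS
  omega

theorem tendsto_bS {rs : ℕ} (h : 2 ≤ rs) : Tendsto (bS rs) atTop (𝓝 0) := by
  have h1 : Tendsto (fun n : ℕ => ((1 : ℝ) / 2) ^ n) atTop (𝓝 0) :=
    tendsto_pow_atTop_nhds_zero_of_lt_one (by norm_num) (by norm_num)
  exact h1.comp (tendsto_atTop_mono (le_nS h) tendsto_id)

theorem logTor_of_bS {ν : Measure ℝ} {lam : ℝ}
    (h : ∀ E : ℝ, |E| < 4 + lam → ∃ R : ℕ, ∀ rs, R ≤ rs → ∀ δ : ℝ, 0 < δ → ∃ I₀ : ℕ, ∀ I, I₀ ≤ I →
      ∀ N₀ : ℕ, ∃ N, N₀ ≤ N ∧ ∃ _ : NeZero N,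
        ∫ v, Real.log (Sf (AT N) (Wh E (bS rs I) v) 0) ∂(Measure.pi fun _ : Tor N => ν) ≤
          -((1 - δ) * Real.log (1 / bS rs I))) : LogTor ν lam := by
  refine ⟨fun r i => bS (max r 2) i, fun r i => bS_pos _ _, fun r => tendsto_bS (le_max_right _ _),
    fun E hE => ?_⟩
  obtain ⟨R, hR⟩ := h E hE
  refine ⟨max R 2, fun r hr δ hδ => ?_⟩
  obtain ⟨I₀, hI⟩ := hR r ((le_max_left _ _).trans hr) δ hδ
  have hr2 : max r 2 = r := max_eq_left ((le_max_right _ _).trans hr)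
  filter_upwards [eventually_ge_atTop I₀] with i hi
  simp only [hr2, neg_mul]
  exact hI i hi

end P365L.Z0
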