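import Vale.Agent.P365.Z0.H562.Avg

/-!
# P365, zero-dimensional spectrum, Z10a: infinitely many heavy balls
-/

namespace P365L.Z0

open MeasureTheory Complex Filter Topology Metric ProbabilityTheory P365L.Inf
open scoped ENNReal InnerProductSpace

theorem PT_eq {V : Site → ℝ} {x : Site} {μ : Measure ℝ} (hμ : IsSpectralMeasure V (dl x) μ)
    {b : ℝ} (hb : 0 < b) (E : ℝ) : PT μ b E = (gx V (E + b * I) x).im := by
  unfold PT
  rw [H592.kernel_eq hμ E hb, gx_im (hz_im E hb)]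
  simp

theorem mass_dl {V : Site → ℝ} {x : Site} {μ : Measure ℝ} (hμ : IsSpectralMeasure V (dl x) μ) :
    μ Set.univ ≤ 1 := by
  have := hμ.finite
  have h := mass_eq hμ
  have h1 : ‖(dl x : L2)‖ = 1 := by
    unfold dl
    rw [lp.norm_single (by norm_num)]
    simp
  rw [h1, one_pow, Measure.real] at h
  rw [← ENNReal.ofReal_toReal (measure_ne_top μ Set.univ), h, ENNReal.ofReal_one]

/-- the levels -/
noncomputable def TT (s c : ℝ) : ℝ := 5 * c ^ (s - 1)

/-- the integral over the energies at which the density is low -/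
noncomputable def JJ (V : Site → ℝ) (x : Site) (L s c : ℝ) : ℝ≥0∞ :=
  ∫⁻ E in Set.Ioo (-L) L, (if (gx V (E + c * I) x).im ≤ TT s c then
    ENNReal.ofReal (gx V (E + c * I) x).im else 0)

variable {Ω : Type*} [MeasurableSpace Ω] {P : Measure Ω} [IsProbabilityMeasure P]
variable {γ : ℝ} {V : Site → Ω → ℝ}

theorem measurable_low (hV : ∀ x, Measurable (V x)) (x : Site) {c : ℝ} (hc : 0 < c) (T : ℝ) :
    Measurable fun q : Ω × ℝ => if (gx (InfB.pot V q.1) (q.2 + c * I) x).im ≤ T then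
      ENNReal.ofReal (gx (InfB.pot V q.1) (q.2 + c * I) x).im else 0 := by
  have h1 : Measurable fun q : Ω × ℝ => (gx (InfB.pot V q.1) (q.2 + c * I) x).im := by
    refine Complex.measurable_im.comp (measurable_gx (fun q : Ω × ℝ => InfB.pot V q.1)
      (fun q => (q.2 : ℂ) + c * I) (fun y => (hV y).comp measurable_fst) ?_
      (fun q => hz_im q.2 hc) x)
    exact (Complex.measurable_ofReal.comp measurable_snd).add_const _
  exact Measurable.ite (measurableSet_le h1 measurable_const) h1.ennreal_ofReal measurable_const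

theorem measurable_JJ (hV : ∀ x, Measurable (V x)) (x : Site) {c : ℝ} (hc : 0 < c) (L s : ℝ) :
    Measurable fun ω => JJ (InfB.pot V ω) x L s c :=
  (measurable_low hV x hc (TT s c)).lintegral_prod_right'

theorem lint_JJ (hs : InfB.BSetup P V γ) (x : Site) {c : ℝ} (hc : 0 < c) (L s : ℝ)
    (hsm : 5 * c ^ (s / 2) ≤ 1 / 2) :
    ∫⁻ ω, JJ (InfB.pot V ω) x L s c ∂P ≤ ENNReal.ofReal (1 / (Real.pi * γ)) *
      (ENNReal.ofReal (2 * Real.pi * Real.sqrt (2 * (5 * c ^ (s / 2)))) *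
        volume (Set.Ioo (-L) L) + ENNReal.ofReal Real.pi *
        ∫⁻ E in Set.Ioo (-L) L, P {ω | c ^ (1 - s / 2) ≤ wx (InfB.pot V ω) (E + c * I) x}) := by
  have hTβ : TT s c * c ^ (1 - s / 2) = 5 * c ^ (s / 2) := by
    unfold TT
    rw [mul_assoc, ← Real.rpow_add hc]
    congr 2
    ring
  have h1 : ∫⁻ ω, JJ (InfB.pot V ω) x L s c ∂P = ∫⁻ E in Set.Ioo (-L) L, ∫⁻ ω,
      (if (gx (InfB.pot V ω) (E + c * I) x).im ≤ TT s c then
        ENNReal.ofReal (gx (InfB.pot V ω) (E + c * I) x).im else 0) ∂P :=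
    lintegral_lintegral_swap (measurable_low hs.hV x hc (TT s c)).aemeasurable
  rw [h1]
  calc _ ≤ ∫⁻ E in Set.Ioo (-L) L, ENNReal.ofReal (1 / (Real.pi * γ)) *
        (ENNReal.ofReal (2 * Real.pi * Real.sqrt (2 * (5 * c ^ (s / 2)))) +
          ENNReal.ofReal Real.pi *
            P {ω | c ^ (1 - s / 2) ≤ wx (InfB.pot V ω) (E + c * I) x}) := by
        refine lintegral_mono fun E => ?_
        have h2 := avg_gx hs x (hz_im E hc) (T := TT s c) (β := c ^ (1 - s / 2))
          (by unfold TT; positivity) (by rw [hTβ]; exact hsm)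
        rwa [mul_assoc 2 (TT s c), hTβ] at h2
    _ = _ := by
        rw [lintegral_const_mul' _ _ ENNReal.ofReal_ne_top, lintegral_add_left measurable_const,
          setLIntegral_const, lintegral_const_mul' _ _ ENNReal.ofReal_ne_top]

/-- **Along the sequence the low energies do not count.** -/
theorem liminf_JJ (hs : InfB.BSetup P V γ) (x : Site) {L : ℝ} {c : ℕ → ℝ} (hc : ∀ n, 0 < c n)
    (hc0 : Tendsto c atTop (𝓝 0))
    (hw : ∀ e : ℝ, 0 < e → Tendsto (fun n => ∫⁻ E in Set.Ioo (-L) L,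
      P {ω | c n ^ (1 - e) ≤ wx (InfB.pot V ω) (E + c n * I) x}) atTop (𝓝 0))
    {s : ℝ} (hs0 : 0 < s) :
    ∀ᵐ ω ∂P, liminf (fun n => JJ (InfB.pot V ω) x L s (c n)) atTop = 0 := by
  have hm : ∀ n, Measurable fun ω => JJ (InfB.pot V ω) x L s (c n) := fun n =>
    measurable_JJ hs.hV x (hc n) L s
  have hpow : Tendsto (fun n => 5 * c n ^ (s / 2)) atTop (𝓝 0) := by
    have h1 : Tendsto (fun n => c n ^ (s / 2)) atTop (𝓝 ((0 : ℝ) ^ (s / 2))) :=
      hc0.rpow_const (Or.inr (by positivity))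
    rw [Real.zero_rpow (by positivity)] at h1
    simpa using h1.const_mul 5
  have hsqrt : Tendsto (fun n => ENNReal.ofReal
      (2 * Real.pi * Real.sqrt (2 * (5 * c n ^ (s / 2))))) atTop (𝓝 0) := by
    have h1 : Tendsto (fun n => 2 * Real.pi * Real.sqrt (2 * (5 * c n ^ (s / 2)))) atTop
        (𝓝 (2 * Real.pi * Real.sqrt (2 * 0))) :=
      ((hpow.const_mul 2).sqrt).const_mul _
    have h2 := ENNReal.tendsto_ofReal h1
    simpa using h2
  have hlim : Tendsto (fun n => ∫⁻ ω, JJ (InfB.pot V ω) x L s (c n) ∂P) atTop (𝓝 0) := by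
    have hup : Tendsto (fun n => ENNReal.ofReal (1 / (Real.pi * γ)) *
      (ENNReal.ofReal (2 * Real.pi * Real.sqrt (2 * (5 * c n ^ (s / 2)))) *
        volume (Set.Ioo (-L) L) + ENNReal.ofReal Real.pi *
        ∫⁻ E in Set.Ioo (-L) L, P {ω | c n ^ (1 - s / 2) ≤
          wx (InfB.pot V ω) (E + c n * I) x})) atTop (𝓝 0) := by
      have h3 : Tendsto (fun n => ENNReal.ofReal
          (2 * Real.pi * Real.sqrt (2 * (5 * c n ^ (s / 2)))) * volume (Set.Ioo (-L) L)) atTop
          (𝓝 (0 * volume (Set.Ioo (-L) L))) :=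
        ENNReal.Tendsto.mul_const hsqrt (Or.inr (by rw [Real.volume_Ioo]; exact
          ENNReal.ofReal_ne_top))
      have h4 : Tendsto (fun n => ENNReal.ofReal Real.pi *
        ∫⁻ E in Set.Ioo (-L) L, P {ω | c n ^ (1 - s / 2) ≤
          wx (InfB.pot V ω) (E + c n * I) x}) atTop (𝓝 (ENNReal.ofReal Real.pi * 0)) :=
        ENNReal.Tendsto.const_mul (hw (s / 2) (by positivity)) (Or.inr ENNReal.ofReal_ne_top)
      have h5 := ENNReal.Tendsto.const_mul (h3.add h4)
        (Or.inr (ENNReal.ofReal_ne_top (r := 1 / (Real.pi * γ))))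
      simpa using h5
    refine tendsto_of_tendsto_of_tendsto_of_le_of_le' tendsto_const_nhds hup
      (Eventually.of_forall fun n => zero_le) ?_
    have h6 : ∀ᶠ n in atTop, 5 * c n ^ (s / 2) < 1 / 2 := hpow.eventually_lt_const (by norm_num)
    filter_upwards [h6] with n hn
    exact lint_JJ hs x (hc n) L s hn.le
  have h7 : ∫⁻ ω, liminf (fun n => JJ (InfB.pot V ω) x L s (c n)) atTop ∂P ≤
      liminf (fun n => ∫⁻ ω, JJ (InfB.pot V ω) x L s (c n) ∂P) atTop := lintegral_liminf_le hm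
  rw [hlim.liminf_eq] at h7
  have h8 : ∫⁻ ω, liminf (fun n => JJ (InfB.pot V ω) x L s (c n)) atTop ∂P = 0 :=
    le_antisymm h7 zero_le
  exact (lintegral_eq_zero_iff (Measurable.liminf hm)).1 h8

/-- **From the low energies to heavy balls**, one potential, one exponent. -/
theorem heavy_one {W : Site → ℝ} {x : Site} {L : ℝ} {μ : Measure ℝ}
    (hμ : IsSpectralMeasure W (dl x) μ) (hsupp : μ (Set.Icc (-L) L)ᶜ = 0) {c : ℕ → ℝ}
    (hc : ∀ n, 0 < c n) (hc0 : Tendsto c atTop (𝓝 0)) {s : ℝ} (hs0 : 0 < s) (_hs1 : s < 1)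
    (hj : liminf (fun n => JJ W x L s (c n)) atTop = 0) :
    ∀ᵐ t ∂μ, ∃ᶠ n in atTop, ENNReal.ofReal (c n ^ s) ≤ μ (closedBall t (c n ^ (1 - s))) := by
  have hfin := hμ.finite
  have hpow : Tendsto (fun n => c n ^ s) atTop (𝓝 0) := by
    have h1 : Tendsto (fun n => c n ^ s) atTop (𝓝 ((0 : ℝ) ^ s)) :=
      hc0.rpow_const (Or.inr hs0.le)
    rwa [Real.zero_rpow hs0.ne'] at h1
  set A : ℕ → ℕ → Set ℝ := fun k n => {t | t ∈ Set.Icc (-L + 1 / ((k : ℝ) + 1))
    (L - 1 / ((k : ℝ) + 1)) ∧ μ.real (closedBall t (c n ^ (1 - s))) ≤ c n ^ s} with hA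
  have hAk : ∀ k, μ {t | ∀ᶠ n in atTop, t ∈ A k n} = 0 := by
    intro k
    refine det_lim ?_ hj
    have h1 : ∀ᶠ n in atTop, c n < 1 / ((k : ℝ) + 1) := hc0.eventually_lt_const (by positivity)
    have h2 : ∀ᶠ n in atTop, c n ^ s < 1 / 2 := hpow.eventually_lt_const (by norm_num)
    have h3 : ∀ᶠ n in atTop, c n < 1 := hc0.eventually_lt_const one_pos
    filter_upwards [h1, h2, h3] with n hn1 hn2 hn3
    have hcn := hc n
    have e0 : c n ^ (1 - s) * c n ^ s = c n := by
      rw [← Real.rpow_add hcn]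
      simp
    have hr : 2 * c n ≤ c n ^ (1 - s) := by
      have h5 : 0 < c n ^ (1 - s) := Real.rpow_pos_of_pos hcn _
      nlinarith
    have hT : c n ^ s / c n + 4 * c n / (c n ^ (1 - s)) ^ 2 ≤ TT s (c n) := by
      have e1 : c n ^ s / c n = c n ^ (s - 1) := by
        rw [Real.rpow_sub hcn, Real.rpow_one]
      have e2 : c n / (c n ^ (1 - s)) ^ 2 = c n ^ (2 * s - 1) := by
        have : (c n ^ (1 - s)) ^ 2 = c n ^ (2 - 2 * s) := by
          rw [← Real.rpow_natCast, ← Real.rpow_mul hcn.le]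
          congr 1
          push_cast
          ring
        rw [this]
        nth_rewrite 1 [← Real.rpow_one (c n)]
        rw [← Real.rpow_sub hcn]
        congr 1
        ring
      have e3 : c n ^ (2 * s - 1) ≤ c n ^ (s - 1) :=
        Real.rpow_le_rpow_of_exponent_ge hcn hn3.le (by linarith)
      rw [e1, mul_div_assoc, e2]
      unfold TT
      linarith
    have h6 := det_one (mass_dl hμ) hcn hr hT (J' := Set.Icc (-L + 1 / ((k : ℝ) + 1))
      (L - 1 / ((k : ℝ) + 1))) (J := Set.Ioo (-L) L) measurableSet_Ioo (by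
        intro t ht u hu
        rw [mem_closedBall, Real.dist_eq, abs_le] at hu
        exact ⟨by linarith [ht.1, hu.1], by linarith [ht.2, hu.2]⟩)
    refine h6.trans (le_of_eq ?_)
    unfold JJ
    refine lintegral_congr fun E => ?_
    rw [PT_eq hμ hcn E]
  have hatom : ∀ t : ℝ, μ ({t} ∩ {t | ¬ ∃ᶠ n in atTop,
      ENNReal.ofReal (c n ^ s) ≤ μ (closedBall t (c n ^ (1 - s)))}) = 0 := by
    intro t
    by_cases h : μ {t} = 0
    · exact measure_mono_null Set.inter_subset_left h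
    · have h1 : ∃ᶠ n in atTop, ENNReal.ofReal (c n ^ s) ≤ μ (closedBall t (c n ^ (1 - s))) := by
        refine Eventually.frequently ?_
        have h2 : Tendsto (fun n => ENNReal.ofReal (c n ^ s)) atTop (𝓝 0) := by
          simpa using ENNReal.tendsto_ofReal hpow
        filter_upwards [h2.eventually_lt_const (pos_iff_ne_zero.2 h)] with n hn
        refine hn.le.trans (measure_mono ?_)
        rw [Set.singleton_subset_iff]
        exact mem_closedBall_self (Real.rpow_nonneg (hc n).le _)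
      have h3 : ({t} ∩ {t | ¬ ∃ᶠ n in atTop,
          ENNReal.ofReal (c n ^ s) ≤ μ (closedBall t (c n ^ (1 - s)))}) = ∅ := by
        ext u
        simp only [Set.mem_inter_iff, Set.mem_singleton_iff, Set.mem_ofPred_eq,
          Set.mem_empty_iff_false, iff_false, not_and, not_not]
        rintro rfl
        exact h1
      rw [h3, measure_empty]
  rw [ae_iff]
  refine measure_mono_null (t := (Set.Icc (-L) L)ᶜ ∪ ((⋃ k, {t | ∀ᶠ n in atTop, t ∈ A k n}) ∪
    (({L} ∩ {t | ¬ ∃ᶠ n in atTop, ENNReal.ofReal (c n ^ s) ≤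
      μ (closedBall t (c n ^ (1 - s)))}) ∪ ({-L} ∩ {t | ¬ ∃ᶠ n in atTop,
        ENNReal.ofReal (c n ^ s) ≤ μ (closedBall t (c n ^ (1 - s)))})))) ?_ ?_
  · intro t ht
    by_cases h1 : t ∈ Set.Icc (-L) L
    swap
    · exact Or.inl h1
    right
    by_cases h2 : t = L
    · exact Or.inr (Or.inl ⟨h2, ht⟩)
    by_cases h3 : t = -L
    · exact Or.inr (Or.inr ⟨h3, ht⟩)
    left
    have h4 : t < L := lt_of_le_of_ne h1.2 h2
    have h5 : -L < t := lt_of_le_of_ne h1.1 (Ne.symm h3)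
    obtain ⟨k, hk⟩ := exists_nat_one_div_lt (show 0 < min (L - t) (t + L) from
      lt_min (by linarith) (by linarith))
    have h6 := hk.le.trans (min_le_left _ _)
    have h7 := hk.le.trans (min_le_right _ _)
    refine Set.mem_iUnion.2 ⟨k, ?_⟩
    have h8 : ¬ ∃ᶠ n in atTop, ENNReal.ofReal (c n ^ s) ≤ μ (closedBall t (c n ^ (1 - s))) := ht
    rw [not_frequently] at h8
    show ∀ᶠ n in atTop, t ∈ A k n
    filter_upwards [h8] with n hn
    refine ⟨⟨by linarith, by linarith⟩, ?_⟩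
    rw [not_le] at hn
    have h9 : μ.real (closedBall t (c n ^ (1 - s))) ≤ (ENNReal.ofReal (c n ^ s)).toReal :=
      ENNReal.toReal_mono ENNReal.ofReal_ne_top hn.le
    rwa [ENNReal.toReal_ofReal (Real.rpow_nonneg (hc n).le _)] at h9
  · refine measure_union_null hsupp (measure_union_null ?_ (measure_union_null (hatom L)
      (hatom (-L))))
    exact measure_iUnion_null hAk

/-- **Z10a.** -/
theorem z10a (hs : InfB.BSetup P V γ) (x : Site) {L : ℝ}
    (hsupp : ∀ᵐ ω ∂P, ∀ μ, IsSpectralMeasure (InfB.pot V ω) (dl x) μ →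
      μ (Set.Icc (-L) L)ᶜ = 0) {c : ℕ → ℝ} (hc : ∀ n, 0 < c n) (hc0 : Tendsto c atTop (𝓝 0))
    (hw : ∀ e : ℝ, 0 < e → Tendsto (fun n => ∫⁻ E in Set.Ioo (-L) L,
      P {ω | c n ^ (1 - e) ≤ wx (InfB.pot V ω) (E + c n * I) x}) atTop (𝓝 0)) :
    ∀ᵐ ω ∂P, ∀ μ, IsSpectralMeasure (InfB.pot V ω) (dl x) μ → ∀ s : ℝ, 0 < s → s < 1 →
      ∀ᵐ t ∂μ, ∃ᶠ n in atTop, ENNReal.ofReal (c n ^ s) ≤ μ (closedBall t (c n ^ (1 - s))) := by
  have h1 : ∀ᵐ ω ∂P, ∀ k : ℕ,
      liminf (fun n => JJ (InfB.pot V ω) x L (1 / ((k : ℝ) + 2)) (c n)) atTop = 0 :=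
    ae_all_iff.2 fun k => liminf_JJ hs x hc hc0 hw (by positivity)
  filter_upwards [h1, hsupp] with ω hω hω2 μ hμ s hs0 hs1
  obtain ⟨k, hk⟩ := exists_nat_one_div_lt hs0
  have hk2 : 1 / ((k : ℝ) + 2) ≤ s := by
    refine le_trans ?_ hk.le
    exact one_div_le_one_div_of_le (by positivity) (by linarith)
  have h2 := heavy_one hμ (hω2 μ hμ) hc hc0 (s := 1 / ((k : ℝ) + 2)) (by positivity) (by
    rw [div_lt_one (by positivity)]
    have : (0 : ℝ) ≤ k := Nat.cast_nonneg k
    linarith) (hω k)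
  filter_upwards [h2] with t ht
  refine (ht.and_eventually (hc0.eventually_lt_const one_pos)).mono fun n hn => ?_
  obtain ⟨hn1, hn2⟩ := hn
  refine (ENNReal.ofReal_le_ofReal ?_).trans (hn1.trans (measure_mono ?_))
  · exact Real.rpow_le_rpow_of_exponent_ge (hc n) hn2.le hk2
  · exact closedBall_subset_closedBall
      (Real.rpow_le_rpow_of_exponent_ge (hc n) hn2.le (by linarith))

end P365L.Z0
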